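import Vale.Agent.P275HG.Hda
import Vale.Agent.P281Z.Hg.F1a
import Vale.Agent.P281Z.Hg.F1b
import Vale.Agent.P281Z.Hg.F2a
import Vale.Agent.P281Z.Hg.F2b
import Vale.Agent.P281Z.Hg.K1a
import Vale.Agent.P281Z.Hg.K1b
import Vale.Agent.P281Z.Hg.Ab0a
import Vale.Agent.P281Z.Hg.G1
import Vale.Agent.P281Z.Hg.G2
import Vale.Agent.P281Z.Hg.G3
import Vale.Agent.P281Z.Hg.G4
import Vale.Agent.P281Z.Hg.G6

/-!
# P275, mixed Hodge block, row GLB
-/

set_option linter.all false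

open scoped Manifold ContDiff Topology
open Filter MeasureTheory

noncomputable section

namespace Vale.Agent.P275HG

open Vale.Agent.P272.K Vale.Agent.P272.K.INT Vale.Agent.P281Z.Hg Vale.Agent.P281Z.Hg.Ws
  Vale.Agent.P275M Vale.Agent.P299.H863

theorem f2b0 : F2b := f2b f1a f1b f2a

theorem k1a0 : K1a := k1a f1a f1b

section

variable (d : ℕ) (M : Type) [TopologicalSpace M] [ChartedSpace (Cm d) M] [T2Space M]
  [CompactSpace M] [IsManifold 𝓘(ℂ, Cm d) ω M]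

theorem g10 : G1 d M := g1 f1a f2b0 k1b' d M

theorem g20 : G2 d M := g2 f1a f1b k1a0 k1b' (g10 d M)

theorem g40 : G4 d M := g4 f1a f1b f2b0 (g10 d M)

theorem g30 : G3 d M := g3 f1a f1b f2b0 k1a0 (g10 d M) (g20 d M) (g40 d M)

/-- the de Rham complex exists -/
theorem exists_X : ∃ X : Cx (SF d M) d, RealX X := (g20 d M).1.imp fun _ h => h.1

variable {d M}

theorem ok_X {X : Cx (SF d M) d} (hX : RealX X) : X.OK := by
  obtain ⟨⟨X', h1, h2⟩, h3, -⟩ := g20 d M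
  rwa [h3 X X' hX h1]

/-- the Kaehler package exists -/
theorem exists_K {X : Cx (SF d M) d} (hX : RealX X) {w : Rw d M (Matrix (Fin d) (Fin d) ℂ)}
    (hw : IsKahler w) : ∃ K : KP X, RealK w K := (g30 d M X w hX (ok_X hX) hw).1

theorem alg_K {X : Cx (SF d M) d} (hX : RealX X) {w : Rw d M (Matrix (Fin d) (Fin d) ℂ)}
    (hw : IsKahler w) {K : KP X} (hK : RealK w K) : K.Alg ∧ K.KIa ∧ K.KIb :=
  have h1 := (g30 d M X w hX (ok_X hX) hw).2 K hK (g40 d M X w K hX hw hK).2.2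
  have h2 := KP.kia f2a (ok_X hX) h1
  ⟨h1, h2, KP.kib f2a (ok_X hX) h1 h2⟩

end

theorem subseq {S : Type} [MetricSpace S] {A : Set S} (hA : TotallyBounded A) {u : ℕ → S}
    (hu : ∀ s, u s ∈ A) : ∃ φ : ℕ → ℕ, StrictMono φ ∧ CauchySeq fun s => u (φ s) := by
  have hj := UniformSpace.Completion.isUniformInducing_coe S
  have h5 : IsCompact (closure (((↑) : S → UniformSpace.Completion S) '' A)) :=
    (hA.image hj.uniformContinuous).closure.isCompact_of_isClosed isClosed_closure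
  obtain ⟨x, -, φ, hφ, ht⟩ := h5.tendsto_subseq
    (x := fun s => (u s : UniformSpace.Completion S)) fun s => subset_closure ⟨u s, hu s, rfl⟩
  refine ⟨φ, hφ, ?_⟩
  have c2 := ht.cauchySeq
  rw [Metric.cauchySeq_iff] at c2 ⊢
  intro ε hε
  obtain ⟨N, hN⟩ := c2 ε hε
  refine ⟨N, fun m hm n hn => ?_⟩
  have c3 := hN m hm n hn
  rwa [Function.comp, Function.comp, UniformSpace.Completion.dist_eq] at c3

/-- row GLB -/
theorem glb (greg : GREG) (sym : SYM) : GLB := by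
  intro d M _ _ _ _ _ X w K hX hw hK
  obtain ⟨hal, ha, hb⟩ := alg_K hX hw hK
  have hok := ok_X hX
  have h : K.Alg ∧ K.KIa := ⟨hal, ha⟩
  obtain ⟨L, hL⟩ := exists_loc f2b0 (g10 d M) (g40 d M) hX hw hK h
  choose a b h1 h2 h3 h4 using fun i => sym d M X w K hX hw hK _ ((part d M).mem i)
  let A : LocOp L L (Dw h) := ⟨a, b, h1, h2, fun i s z hz => by
    rw [hL, hL]; exact h3 i s z hz⟩
  obtain ⟨r1, r2⟩ := greg _ _ _ _ _ _ L (Dw h) A h4
  have rg : RG K := fun u f hu hf => by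
    obtain ⟨v, hv⟩ := r1 u f ((cau_iff h u).1 hu) ((null_iff h (fun k => Dw h (u k)) f).1 hf)
    exact ⟨v, (null_iff h u v).2 hv⟩
  have rl : RL K := fun u C hu => by
    obtain ⟨φ, hφ, hc⟩ := subseq (r2 C) (u := u) hu
    exact ⟨φ, hφ, (cau_iff h fun s => u (φ s)).2 hc⟩
  have ws : K.WS := g5 f2b0 (g10 d M) (g40 d M) X w K hX hok hw hK hal ha hb
  exact ⟨⟨hok, hal, ws, s1_of hok h hb ws rg rl, g6 f1b k1a0 d M (g10 d M) X w K hX hK
    (g40 d M X w K hX hw hK).2.2 hb⟩, ha, hb, rg, rl⟩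

/-- smooth Hodge theory on a compact Kaehler manifold, from the two analytic rows -/
theorem hodge_of (glb : GLB) (d : ℕ) (M : Type) [TopologicalSpace M] [ChartedSpace (Cm d) M]
    [T2Space M] [CompactSpace M] [IsManifold 𝓘(ℂ, Cm d) ω M] {X : Cx (SF d M) d}
    {w : Rw d M (Matrix (Fin d) (Fin d) ℂ)} {K : KP X} (hX : RealX X) (hw : IsKahler w)
    (hK : RealK w K) : K.OK ∧ K.KIa ∧ K.KIb ∧ HD K ∧ DD K.A K.Ab := by
  obtain ⟨h1, h2, h3, h4, h5⟩ := glb d M X w K hX hw hK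
  have h6 := hda _ _ X K h1 h2 h3 h4 h5
  exact ⟨h1, h2, h3, h6, (P275FM.dda _ _ X K h1 h2 h3 h6).1⟩

end Vale.Agent.P275HG
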