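import Mathlib.Analysis.InnerProductSpace.Projection.FiniteDimensional
import Mathlib.Analysis.InnerProductSpace.Completion
import Mathlib.Analysis.Normed.Module.FiniteDimension

/-!
# P275: the Hodge decomposition for a symmetric operator, abstract form
-/

set_option linter.all false

open scoped Topology
open Filter

noncomputable section

namespace Vale.Agent.P275HG

variable {S : Type} [NormedAddCommGroup S] [InnerProductSpace ℂ S]

/-- symmetric, regular, compact -/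
structure Ell (D : S →ₗ[ℂ] S) : Prop where
  adj : ∀ u v, inner ℂ (D u) v = inner ℂ u (D v)
  rg : ∀ (w : ℕ → S) (f : S), CauchySeq w → Tendsto (fun k => D (w k)) atTop (𝓝 f) →
    ∃ s, Tendsto w atTop (𝓝 s)
  rl : ∀ (u : ℕ → S) (C : ℝ), (∀ s, ‖u s‖ ≤ C ∧ ‖D (u s)‖ ≤ C) →
    ∃ φ : ℕ → ℕ, StrictMono φ ∧ CauchySeq fun s => u (φ s)
  ws : ∀ u : ℕ → S, CauchySeq u → (∀ y, Tendsto (fun s => inner ℂ (D y) (u s)) atTop (𝓝 0)) →
    ∃ v : ℕ → S, Tendsto (fun s => ‖u s - v s‖) atTop (𝓝 0) ∧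
      Tendsto (fun s => ‖D (v s)‖) atTop (𝓝 0)

namespace Ell

variable {D : S →ₗ[ℂ] S} (h : Ell D)
include h

/-- the graph is closed -/
theorem graph {w : ℕ → S} {s f : S} (h1 : Tendsto w atTop (𝓝 s))
    (h2 : Tendsto (fun k => D (w k)) atTop (𝓝 f)) : D s = f := by
  refine ext_inner_right ℂ fun y => ?_
  have a1 : Tendsto (fun k => inner ℂ (w k) (D y)) atTop (𝓝 (inner ℂ s (D y))) :=
    h1.inner tendsto_const_nhds
  have a2 : Tendsto (fun k => inner ℂ (D (w k)) y) atTop (𝓝 (inner ℂ f y)) :=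
    h2.inner tendsto_const_nhds
  simp only [h.adj] at a2
  rw [h.adj]
  exact tendsto_nhds_unique a1 a2

theorem lim {w : ℕ → S} {f : S} (h1 : CauchySeq w)
    (h2 : Tendsto (fun k => D (w k)) atTop (𝓝 f)) : ∃ s, Tendsto w atTop (𝓝 s) ∧ D s = f :=
  let ⟨s, hs⟩ := h.rg w f h1 h2
  ⟨s, hs, h.graph hs h2⟩

theorem fin : FiniteDimensional ℂ (LinearMap.ker D) := by
  refine FiniteDimensional.of_isCompact_closedBall₀ ℂ (r := 1) one_pos ?_
  refine IsSeqCompact.isCompact fun u hu => ?_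
  have h0 : ∀ s, D (u s) = 0 := fun s => (u s).2
  obtain ⟨φ, hφ, hc⟩ := h.rl (fun s => u s) 1 fun s =>
    ⟨mem_closedBall_zero_iff.1 (hu s), by rw [h0, norm_zero]; exact zero_le_one⟩
  obtain ⟨v, hv, hD⟩ := h.lim (f := 0) hc (by simp only [h0]; exact tendsto_const_nhds)
  have ht : Tendsto (u ∘ φ) atTop (𝓝 (⟨v, hD⟩ : LinearMap.ker D)) :=
    tendsto_subtype_rng.2 hv
  exact ⟨⟨v, hD⟩, Metric.isClosed_closedBall.mem_of_tendsto ht
    (Eventually.of_forall fun s => hu (φ s)), φ, hφ, ht⟩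

theorem orth (y : S) : D y ∈ (LinearMap.ker D)ᗮ := by
  rw [Submodule.mem_orthogonal]
  intro u hu
  rw [← h.adj, show D u = 0 from hu, inner_zero_left]

/-- the inequality of Poincare -/
theorem poinc : ∃ C : ℝ, 0 ≤ C ∧ ∀ a ∈ (LinearMap.ker D)ᗮ, ‖a‖ ≤ C * ‖D a‖ := by
  by_contra hn
  have h1 : ∀ n : ℕ, ∃ a ∈ (LinearMap.ker D)ᗮ, ‖a‖ = 1 ∧ ‖D a‖ ≤ 1 / ((n : ℝ) + 1) := by
    intro n
    by_contra h2
    refine hn ⟨(n : ℝ) + 1, by positivity, fun a ha => ?_⟩
    by_contra h3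
    have h4 : ((n : ℝ) + 1) * ‖D a‖ < ‖a‖ := not_le.1 h3
    have h5 : 0 < ‖a‖ := lt_of_le_of_lt (by positivity) h4
    refine h2 ⟨((‖a‖⁻¹ : ℝ) : ℂ) • a, Submodule.smul_mem _ _ ha, ?_, ?_⟩
    · rw [norm_smul, Complex.norm_real, Real.norm_of_nonneg (by positivity), inv_mul_cancel₀ h5.ne']
    · rw [map_smul, norm_smul, Complex.norm_real, Real.norm_of_nonneg (by positivity),
        inv_mul_le_iff₀ h5, mul_one_div, le_div_iff₀ (by positivity), mul_comm]
      exact h4.le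
  choose a ha hn1 hD using h1
  have t0 : Tendsto (fun s : ℕ => 1 / ((s : ℝ) + 1)) atTop (𝓝 0) :=
    tendsto_one_div_add_atTop_nhds_zero_nat
  obtain ⟨φ, hφ, hc⟩ := h.rl a 1 fun s => ⟨(hn1 s).le, (hD s).trans (by
    rw [div_le_one (by positivity)]; linarith [Nat.cast_nonneg (α := ℝ) s])⟩
  have t1 : Tendsto (fun s => D (a s)) atTop (𝓝 0) :=
    squeeze_zero_norm hD t0
  obtain ⟨v, hv, hDv⟩ := h.lim hc (t1.comp hφ.tendsto_atTop)
  have hv2 : v ∈ (LinearMap.ker D)ᗮ :=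
    (Submodule.isClosed_orthogonal _).mem_of_tendsto hv (Eventually.of_forall fun s => ha (φ s))
  have hv0 : v = 0 := inner_self_eq_zero.1 ((Submodule.mem_orthogonal _ _).1 hv2 v hDv)
  have t2 := hv.norm
  simp only [hn1, hv0, norm_zero] at t2
  exact one_ne_zero (tendsto_nhds_unique tendsto_const_nhds t2)

theorem split (a : S) : ∃ k ∈ LinearMap.ker D, ∃ b ∈ (LinearMap.ker D)ᗮ, a = k + b := by
  haveI := h.fin
  obtain ⟨k, hk, b, hb, e⟩ := Submodule.exists_add_mem_mem_orthogonal (K := LinearMap.ker D) a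
  exact ⟨k, hk, b, hb, e⟩

/-- the range is dense in the complement of the kernel -/
theorem dense {a : S} (ha : a ∈ (LinearMap.ker D)ᗮ) :
    ∃ y : ℕ → S, Tendsto (fun s => D (y s)) atTop (𝓝 a) := by
  let j : S →L[ℂ] UniformSpace.Completion S := UniformSpace.Completion.toComplL
  have hj : ∀ x, j x = (x : UniformSpace.Completion S) := fun _ => rfl
  let R := (LinearMap.range ((j : S →ₗ[ℂ] UniformSpace.Completion S) ∘ₗ D)).topologicalClosure
  obtain ⟨x, hx, r, hr, e⟩ := Submodule.exists_add_mem_mem_orthogonal (K := R) (j a)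
  obtain ⟨z, hz, hzx⟩ := mem_closure_iff_seq_limit.1 hx
  choose y hy using hz
  have t1 : Tendsto (fun s => j (a - D (y s))) atTop (𝓝 r) := by
    have t2 := (tendsto_const_nhds (x := j a)).sub hzx
    rw [show j a - x = r by rw [e]; abel] at t2
    refine t2.congr fun s => ?_
    rw [map_sub, ← hy s]
    rfl
  have c1 : CauchySeq fun s => a - D (y s) := by
    have c2 := t1.cauchySeq
    rw [Metric.cauchySeq_iff] at c2 ⊢
    intro ε hε
    obtain ⟨N, hN⟩ := c2 ε hε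
    refine ⟨N, fun m hm n hn => ?_⟩
    have c3 := hN m hm n hn
    rwa [hj, hj, UniformSpace.Completion.dist_eq] at c3
  obtain ⟨v, v1, v2⟩ := h.ws _ c1 fun w => by
    have t3 : Tendsto (fun s => inner ℂ (j (D w)) (j (a - D (y s)))) atTop
        (𝓝 (inner ℂ (j (D w)) r)) := tendsto_const_nhds.inner t1
    rw [(Submodule.mem_orthogonal _ _).1 hr (j (D w))
      (Submodule.le_topologicalClosure _ ⟨w, rfl⟩)] at t3
    simpa only [hj, UniformSpace.Completion.inner_coe] using t3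
  have v3 : Tendsto (fun s => a - D (y s) - v s) atTop (𝓝 0) :=
    tendsto_zero_iff_norm_tendsto_zero.2 v1
  have c4 : CauchySeq v := by
    have := c1.add v3.neg.cauchySeq
    refine (congrArg CauchySeq (funext fun s => ?_)).mp this
    simp
  obtain ⟨k, hk, hDk⟩ := h.lim c4 (tendsto_zero_iff_norm_tendsto_zero.2 v2)
  have t4 : Tendsto (fun s => a - D (y s)) atTop (𝓝 k) := by
    have := v3.add hk
    rw [zero_add] at this
    exact this.congr fun s => by abel
  have hk2 : k ∈ (LinearMap.ker D)ᗮ := (Submodule.isClosed_orthogonal _).mem_of_tendsto t4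
    (Eventually.of_forall fun s => Submodule.sub_mem _ ha (h.orth _))
  have hk0 : k = 0 := inner_self_eq_zero.1 ((Submodule.mem_orthogonal _ _).1 hk2 k hDk)
  have t5 := (tendsto_const_nhds (x := a)).sub t4
  rw [hk0, sub_zero] at t5
  exact ⟨y, t5.congr fun s => by abel⟩

theorem surj {a : S} (ha : a ∈ (LinearMap.ker D)ᗮ) : ∃ b ∈ (LinearMap.ker D)ᗮ, D b = a := by
  obtain ⟨y, hy⟩ := h.dense ha
  choose k hk b hb e using fun s => h.split (y s)
  have h1 : ∀ s, D (y s) = D (b s) := fun s => by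
    rw [e s, map_add, show D (k s) = 0 from hk s, zero_add]
  simp only [h1] at hy
  obtain ⟨C, hC, hP⟩ := h.poinc
  have c1 : CauchySeq b := by
    have c2 := hy.cauchySeq
    rw [Metric.cauchySeq_iff] at c2 ⊢
    intro ε hε
    obtain ⟨N, hN⟩ := c2 (ε / (C + 1)) (by positivity)
    refine ⟨N, fun m hm n hn => ?_⟩
    have c3 := hN m hm n hn
    have c4 := hP _ (Submodule.sub_mem _ (hb m) (hb n))
    rw [dist_eq_norm] at c3 ⊢
    rw [map_sub] at c4
    rw [lt_div_iff₀ (by positivity)] at c3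
    nlinarith [norm_nonneg (D (b m) - D (b n))]
  obtain ⟨s, hs, hD⟩ := h.lim c1 hy
  exact ⟨s, (Submodule.isClosed_orthogonal _).mem_of_tendsto hs (Eventually.of_forall hb), hD⟩

/-- the Hodge decomposition -/
theorem dec (a : S) : ∃ k ∈ LinearMap.ker D, ∃ b, a = k + D (D b) := by
  obtain ⟨k, hk, r, hr, e⟩ := h.split a
  obtain ⟨b, hb, e1⟩ := h.surj hr
  obtain ⟨c, -, e2⟩ := h.surj hb
  exact ⟨k, hk, c, by rw [e2, e1, e]⟩

end Ell

end Vale.Agent.P275HG
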